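import Vale.Agent.P048.Full.Identity
import Vale.Agent.P048.Full.A2
import Vale.Agent.P048.Full.M
import Vale.Agent.P048.Full.Clash.Main
import Vale.Agent.P048.Full.Colour
import Vale.Agent.P048.Full.Final
import Vale.Agent.P048.Full.Small
import Vale.Agent.P048.Full.SClash.Nine

/-! The cycle-complete Ramsey number for all cycles at least as long as the clique, and the
exceptional pair. -/

namespace Vale.Agent.Results.P048.CycleCliqueRamsey

open Vale.Agent.P048

/-- For all `m ≥ n ≥ 3` other than `(3, 3)`, the least `N` such that every graph on `N` vertices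
has a cycle of length `m` or an independent set of size `n` is `(m - 1) (n - 1) + 1`; for
`m = n = 3` five vertices do not suffice. -/
theorem result : (∀ m n : ℕ, 3 ≤ n → n ≤ m → (m, n) ≠ (3, 3) → ∀ N : ℕ,
    ((∀ G : SimpleGraph (Fin N), (∃ (u : Fin N) (w : G.Walk u u), w.IsCycle ∧ w.length = m) ∨
        ∃ S : Finset (Fin N), G.IsNIndepSet n S) ↔ (m - 1) * (n - 1) + 1 ≤ N)) ∧
    ¬∀ G : SimpleGraph (Fin 5),
      (∃ (u : Fin 5) (w : G.Walk u u), w.IsCycle ∧ w.length = 3) ∨
        ∃ S : Finset (Fin 5), G.IsNIndepSet 3 S := by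
  refine ⟨fun m n hn hmn hne => Full.identity Full.a2Pin (Full.mPin Full.a2Pin) Full.clashPin
    Full.colourPin Full.finalPin (Full.smallPin_of Full.sClashPin) m n hn hmn ?_, Full.three_three⟩
  by_contra h
  exact hne (Prod.ext (show m = 3 by omega) (show n = 3 by omega))

end Vale.Agent.Results.P048.CycleCliqueRamsey
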